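import Vale.Agent.Lib.P070.Top

/-!
# P070: the concrete form (norm-closed *-subalgebra of `B(K)`)
-/

open Filter Topology

namespace P070

universe u v w

namespace W

/-- the closure of the range of `π : D → B(K)` -/
noncomputable def clo {D : Type} [CStarAlgebra D] {K : Type} [NormedAddCommGroup K]
    [InnerProductSpace ℂ K] [CompleteSpace K] (π : D →⋆ₐ[ℂ] (K →L[ℂ] K)) :
    StarSubalgebra ℂ (K →L[ℂ] K) := π.range.topologicalClosure

theorem clo_closed {D : Type} [CStarAlgebra D] {K : Type} [NormedAddCommGroup K]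
    [InnerProductSpace ℂ K] [CompleteSpace K] (π : D →⋆ₐ[ℂ] (K →L[ℂ] K)) :
    IsClosed ((clo π : StarSubalgebra ℂ (K →L[ℂ] K)) : Set (K →L[ℂ] K)) :=
  StarSubalgebra.isClosed_topologicalClosure _

theorem mem_clo {D : Type} [CStarAlgebra D] {K : Type} [NormedAddCommGroup K]
    [InnerProductSpace ℂ K] [CompleteSpace K] (π : D →⋆ₐ[ℂ] (K →L[ℂ] K)) (a : D) :
    π a ∈ clo π :=
  StarSubalgebra.le_topologicalClosure _ ⟨a, rfl⟩

/-- the corestriction `D → clo π` -/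
noncomputable def cores {D : Type} [CStarAlgebra D] {K : Type} [NormedAddCommGroup K]
    [InnerProductSpace ℂ K] [CompleteSpace K] (π : D →⋆ₐ[ℂ] (K →L[ℂ] K)) :
    D →⋆ₐ[ℂ] (clo π) := π.codRestrict (clo π) (mem_clo π)

theorem cores_coe {D : Type} [CStarAlgebra D] {K : Type} [NormedAddCommGroup K]
    [InnerProductSpace ℂ K] [CompleteSpace K] (π : D →⋆ₐ[ℂ] (K →L[ℂ] K)) (a : D) :
    ((cores π a : clo π) : K →L[ℂ] K) = π a := rfl

theorem cores_dense {D : Type} [CStarAlgebra D] {K : Type} [NormedAddCommGroup K]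
    [InnerProductSpace ℂ K] [CompleteSpace K] (π : D →⋆ₐ[ℂ] (K →L[ℂ] K)) :
    DenseRange (cores π) := by
  intro T
  rw [mem_closure_iff_seq_limit]
  have h1 : (T : K →L[ℂ] K) ∈ closure (π.range : Set (K →L[ℂ] K)) := by
    have := T.2
    exact this
  rw [mem_closure_iff_seq_limit] at h1
  obtain ⟨x, hx, hlim⟩ := h1
  choose a ha using hx
  refine ⟨fun n => cores π (a n), fun n => ⟨a n, rfl⟩, ?_⟩
  rw [tendsto_subtype_rng]
  have h2 : (fun n => ((cores π (a n) : clo π) : K →L[ℂ] K)) = x := by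
    funext n
    exact ha n
  rw [h2]
  exact hlim

/-- a *-homomorphism of a closed *-subalgebra of `B(K)` is continuous -/
theorem cont_of {K : Type} [NormedAddCommGroup K]
    [InnerProductSpace ℂ K] [CompleteSpace K] (A : StarSubalgebra ℂ (K →L[ℂ] K))
    (hA : IsClosed (A : Set (K →L[ℂ] K))) {L : Type u} [NormedAddCommGroup L]
    [InnerProductSpace ℂ L] [CompleteSpace L] (ρ : A →⋆ₙₐ[ℂ] (L →L[ℂ] L)) : Continuous ρ := by
  let _ : CStarAlgebra A := StarSubalgebra.cstarAlgebra (h_closed := hA) A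
  exact AddMonoidHomClass.continuous_of_bound ρ 1 (fun x => by
    rw [one_mul]
    exact NonUnitalStarAlgHom.norm_apply_le ρ x)

/-- the pull-back to `D` -/
noncomputable def pb {D : Type} [CStarAlgebra D] {K : Type} [NormedAddCommGroup K]
    [InnerProductSpace ℂ K] [CompleteSpace K] (π : D →⋆ₐ[ℂ] (K →L[ℂ] K))
    {L : Type u} [NormedAddCommGroup L]
    [InnerProductSpace ℂ L] [CompleteSpace L] (ρ : clo π →⋆ₙₐ[ℂ] (L →L[ℂ] L)) :
    D →⋆ₙₐ[ℂ] (L →L[ℂ] L) := ρ.comp (cores π : D →⋆ₙₐ[ℂ] (clo π))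

theorem pb_apply {D : Type} [CStarAlgebra D] {K : Type} [NormedAddCommGroup K]
    [InnerProductSpace ℂ K] [CompleteSpace K] (π : D →⋆ₐ[ℂ] (K →L[ℂ] K))
    {L : Type u} [NormedAddCommGroup L]
    [InnerProductSpace ℂ L] [CompleteSpace L] (ρ : clo π →⋆ₙₐ[ℂ] (L →L[ℂ] L)) (a : D) :
    pb π ρ a = ρ (cores π a) := rfl

theorem pb_irr {D : Type} [CStarAlgebra D] {K : Type} [NormedAddCommGroup K]
    [InnerProductSpace ℂ K] [CompleteSpace K] (π : D →⋆ₐ[ℂ] (K →L[ℂ] K))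
    {L : Type u} [NormedAddCommGroup L]
    [InnerProductSpace ℂ L] [CompleteSpace L] (ρ : clo π →⋆ₙₐ[ℂ] (L →L[ℂ] L))
    (h0 : ρ ≠ 0) (hirr : ∀ E : Submodule ℂ L, IsClosed (E : Set L) →
      (∀ T, ∀ x ∈ E, ρ T x ∈ E) → E = ⊥ ∨ E = ⊤) :
    Vale.Agent.P070.IsIrrep (pb π ρ) := by
  have hc : Continuous ρ := cont_of (clo π) (clo_closed π) ρ
  constructor
  · intro h
    apply h0
    have h1 : (ρ : clo π → (L →L[ℂ] L)) = fun _ => 0 := by
      apply (cores_dense π).equalizer hc continuous_const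
      funext a
      have h2 : pb π ρ a = 0 := by rw [h]; rfl
      exact h2
    ext T x
    have h3 := congrFun h1 T
    rw [h3]
    rfl
  · intro E hE hinv
    apply hirr E hE
    intro T x hx
    have hcl : IsClosed {T : clo π | ρ T x ∈ E} :=
      hE.preimage ((ContinuousLinearMap.apply ℂ L x).continuous.comp hc)
    have hall : ∀ T : clo π, T ∈ {T : clo π | ρ T x ∈ E} := by
      intro T
      exact (cores_dense π).induction_on
        (p := fun T => T ∈ {T : clo π | ρ T x ∈ E}) T hcl (fun a => hinv a x hx)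
    exact hall T

/-- the construction with the extra information on the isometry -/
theorem partC_ext.{u', v'} (A : Type) [CStarAlgebra A] (_hn : Nontrivial A)
    (hg : ∃ g : Germ A, RigidT g) (hG1 : GermProp.{u'} A) (hG2 : GermProp.{v'} A) :
    ∃ (D : Type) (_ : CStarAlgebra D)
      (K : Type) (_ : NormedAddCommGroup K) (_ : InnerProductSpace ℂ K) (_ : CompleteSpace K)
      (π : D →⋆ₐ[ℂ] (K →L[ℂ] K)), Irr π ∧ (∃ s : D, star s * s = 1 ∧
        ∃ x : K, x ≠ 0 ∧ π (star s) x = 0) ∧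
        (∀ (L : Type u') [NormedAddCommGroup L] [InnerProductSpace ℂ L] [CompleteSpace L]
          [Nontrivial L] (ρ : D →⋆ₐ[ℂ] (L →L[ℂ] L)), Irr ρ → UEq π ρ) ∧
        (∀ (L : Type v') [NormedAddCommGroup L] [InnerProductSpace ℂ L] [CompleteSpace L]
          [Nontrivial L] (ρ : D →⋆ₐ[ℂ] (L →L[ℂ] L)), Irr ρ → UEq π ρ) := by
  obtain ⟨S⟩ := C.exists_sys hg
  classical
  obtain ⟨T⟩ := C.exists_star S
  refine ⟨T.D, T.iD, S.H, inferInstance, inferInstance, inferInstance, T.π, C.irr_H S T, ?_,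
    fun L _ _ _ _ ρ hρ => C.all_equiv hG1 S T ρ hρ,
    fun L _ _ _ _ ρ hρ => C.all_equiv hG2 S T ρ hρ⟩
  refine ⟨T.ι ((S.z S.c₀).t 0), ?_, S.e S.c₀, ?_, ?_⟩
  · rw [← map_star, ← map_mul, (S.z S.c₀).orth 0 0, if_pos rfl, map_one]
  · intro h
    have h2 := C.norm_e S S.c₀
    rw [h, norm_zero] at h2
    exact zero_ne_one h2
  · rw [← map_star]
    exact C.killed_e S (T.π.comp T.ι) T.hπ S.c₀ 0

theorem concrete.{u', v', w'} :
    ∃ (K : Type) (_ : NormedAddCommGroup K) (_ : InnerProductSpace ℂ K) (_ : CompleteSpace K)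
      (A : StarSubalgebra ℂ (K →L[ℂ] K)),
      IsClosed (A : Set (K →L[ℂ] K)) ∧
      ((∃ x : K, x ≠ 0) ∧ ∀ E : Submodule ℂ K, IsClosed (E : Set K) →
        (∀ T ∈ A, ∀ x ∈ E, T x ∈ E) → E = ⊥ ∨ E = ⊤) ∧
      (∀ (H₁ : Type u') [NormedAddCommGroup H₁] [InnerProductSpace ℂ H₁] [CompleteSpace H₁]
        (H₂ : Type v') [NormedAddCommGroup H₂] [InnerProductSpace ℂ H₂] [CompleteSpace H₂]
        (π₁ : A →⋆ₙₐ[ℂ] (H₁ →L[ℂ] H₁)) (π₂ : A →⋆ₙₐ[ℂ] (H₂ →L[ℂ] H₂)),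
        (π₁ ≠ 0 ∧ ∀ E : Submodule ℂ H₁, IsClosed (E : Set H₁) →
          (∀ T, ∀ x ∈ E, π₁ T x ∈ E) → E = ⊥ ∨ E = ⊤) →
        (π₂ ≠ 0 ∧ ∀ E : Submodule ℂ H₂, IsClosed (E : Set H₂) →
          (∀ T, ∀ x ∈ E, π₂ T x ∈ E) → E = ⊥ ∨ E = ⊤) →
        ∃ U : H₁ ≃ₗᵢ[ℂ] H₂, ∀ (T : A) (x : H₁), U (π₁ T x) = π₂ T (U x)) ∧
      ¬ ∃ (H : Type w') (_ : NormedAddCommGroup H) (_ : InnerProductSpace ℂ H)
        (_ : CompleteSpace H) (φ : A →⋆ₙₐ[ℂ] (H →L[ℂ] H)),
        Function.Injective φ ∧ Set.range φ = {T : H →L[ℂ] H | IsCompactOperator T} := by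
  obtain ⟨B, _, hnt, hsep, hpi, hs⟩ := partO2
  obtain ⟨K0, _, _, _, π0, hK0, hπ0⟩ := partR B hnt
  obtain ⟨ξ, hξ⟩ := exists_norm_eq K0 (zero_le_one (α := ℝ))
  obtain ⟨g, hg, -⟩ := partG.{0} B hnt hsep hpi hs K0 π0 hπ0 ξ hξ
  obtain ⟨D, _, K, _, _, _, π, hπ, ⟨s, hs1, x, hx, hsx⟩, hu, hv⟩ := partC_ext.{u', v'} B hnt ⟨g, hg⟩
    (partG.{u'} B hnt hsep hpi hs) (partG.{v'} B hnt hsep hpi hs)
  refine ⟨K, inferInstance, inferInstance, inferInstance, clo π, clo_closed π, ⟨⟨x, hx⟩, ?_⟩,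
    ?_, ?_⟩
  · intro E hE hinv
    exact hπ E hE (fun a y hy => hinv (π a) (mem_clo π a) y hy)
  · intro H₁ _ _ _ H₂ _ _ _ π₁ π₂ h₁ h₂
    obtain ⟨ρ₁, e₁, i₁, n₁⟩ := irrep_unital (pb π π₁) (pb_irr π π₁ h₁.1 h₁.2)
    obtain ⟨ρ₂, e₂, i₂, n₂⟩ := irrep_unital (pb π π₂) (pb_irr π π₂ h₂.1 h₂.2)
    obtain ⟨U₁, hU₁⟩ := hu H₁ ρ₁ i₁
    obtain ⟨U₂, hU₂⟩ := hv H₂ ρ₂ i₂
    have c₁ : Continuous π₁ := cont_of (clo π) (clo_closed π) π₁
    have c₂ : Continuous π₂ := cont_of (clo π) (clo_closed π) π₂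
    refine ⟨U₁.symm.trans U₂, fun T y => ?_⟩
    refine (cores_dense π).induction_on
        (p := fun T => (U₁.symm.trans U₂) (π₁ T y) = π₂ T ((U₁.symm.trans U₂) y)) T ?_ ?_
    · refine isClosed_eq ?_ ?_
      · exact (U₁.symm.trans U₂).continuous.comp
          ((ContinuousLinearMap.apply ℂ H₁ y).continuous.comp c₁)
      · exact (ContinuousLinearMap.apply ℂ H₂ ((U₁.symm.trans U₂) y)).continuous.comp c₂
    · intro a
      have h1 : U₁.symm (π₁ (cores π a) y) = π a (U₁.symm y) := by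
        apply U₁.injective
        rw [U₁.apply_symm_apply, hU₁, U₁.apply_symm_apply, e₁]
        rfl
      rw [LinearIsometryEquiv.trans_apply, LinearIsometryEquiv.trans_apply, h1, hU₂, e₂]
      rfl
  · rintro ⟨H, _, _, _, φ, h1, h2⟩
    let _ : CStarAlgebra (clo π) := StarSubalgebra.cstarAlgebra (h_closed := clo_closed π) (clo π)
    refine not_compact (D := clo π) ⟨cores π s, ?_, ?_⟩ φ h1 h2
    · rw [← map_star, ← map_mul, hs1, map_one]
    · intro h3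
      have h4 : ((cores π s * star (cores π s) : clo π) : K →L[ℂ] K) x = x := by
        rw [h3]
        rfl
      have h5 : ((cores π s * star (cores π s) : clo π) : K →L[ℂ] K) x = 0 := by
        rw [← map_star, ← map_mul, cores_coe, map_mul, mul_apply_eq_comp, hsx, map_zero]
      exact hx (h4.symm.trans h5)

end W

end P070
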