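import Mathlib

/-!
# P070: definitions for the elementary statement

C*-algebras as norm-closed *-subalgebras of `B(K)`, their representations, irreducibility,
unitary equivalence, property (N), and being isomorphic to the compact operators.
-/

namespace Vale.Agent.P070.Elem

universe u v w

/-- `B(H)`: the bounded operators on `H` -/
abbrev B (H : Type u) [NormedAddCommGroup H] [InnerProductSpace ℂ H] : Type u := H →L[ℂ] H

section

variable {K : Type} [NormedAddCommGroup K] [InnerProductSpace ℂ K] [CompleteSpace K]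
  {H : Type u} [NormedAddCommGroup H] [InnerProductSpace ℂ H] [CompleteSpace H]
  {H' : Type v} [NormedAddCommGroup H'] [InnerProductSpace ℂ H'] [CompleteSpace H']

/-- `T*`: the adjoint operator -/
noncomputable abbrev adj (T : B H) : B H := ContinuousLinearMap.adjoint T

/-- `A` is a norm-closed *-subalgebra of `B(K)`: a C*-algebra of operators on `K` -/
structure IsCStarSubalgebra (A : Set (B K)) : Prop where
  closed : IsClosed A
  zero_mem : 0 ∈ A
  add_mem : ∀ S ∈ A, ∀ T ∈ A, S + T ∈ A
  smul_mem : ∀ c : ℂ, ∀ T ∈ A, c • T ∈ A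
  comp_mem : ∀ S ∈ A, ∀ T ∈ A, S ∘L T ∈ A
  adjoint_mem : ∀ T ∈ A, adj T ∈ A

/-- `π` is a *-homomorphism from `A` to `B(H)`, that is, a representation of `A` on `H` (the values
of `π` outside `A` play no role) -/
structure IsRep (A : Set (B K)) (π : B K → B H) : Prop where
  add : ∀ S ∈ A, ∀ T ∈ A, π (S + T) = π S + π T
  smul : ∀ c : ℂ, ∀ T ∈ A, π (c • T) = c • π T
  comp : ∀ S ∈ A, ∀ T ∈ A, π (S ∘L T) = π S ∘L π T
  adjoint : ∀ T ∈ A, π (adj T) = adj (π T)

/-- `π` is an irreducible representation of `A` on `H`: a representation, nonzero on `A`, such that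
`H` has no closed `π(A)`-invariant subspace other than `0` and `H` -/
structure IsIrrep (A : Set (B K)) (π : B K → B H) : Prop where
  rep : IsRep A π
  ne_zero : ∃ T ∈ A, π T ≠ 0
  irreducible : ∀ E : Submodule ℂ H, IsClosed (E : Set H) → (∀ T ∈ A, ∀ x ∈ E, π T x ∈ E) →
    E = ⊥ ∨ E = ⊤

/-- the representations `π` and `σ` of `A` are unitarily equivalent -/
def UnitarilyEquivalent (A : Set (B K)) (π : B K → B H) (σ : B K → B H') : Prop :=
  ∃ U : H ≃ₗᵢ[ℂ] H', ∀ T ∈ A, ∀ x : H, U (π T x) = σ T (U x)

/-- `φ` is an isomorphism of `A` onto the algebra `K(H)` of all compact operators on `H` -/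
structure IsIsoOntoCompacts (A : Set (B K)) (φ : B K → B H) : Prop where
  rep : IsRep A φ
  inj : Set.InjOn φ A
  range : φ '' A = {T : B H | IsCompactOperator T}

/-- property (N): any two irreducible representations of `A` are unitarily equivalent -/
def PropertyN (A : Set (B K)) : Prop :=
  ∀ (H₁ : Type u) [NormedAddCommGroup H₁] [InnerProductSpace ℂ H₁] [CompleteSpace H₁]
    (H₂ : Type v) [NormedAddCommGroup H₂] [InnerProductSpace ℂ H₂] [CompleteSpace H₂]
    (π₁ : B K → B H₁) (π₂ : B K → B H₂),
    IsIrrep A π₁ → IsIrrep A π₂ → UnitarilyEquivalent A π₁ π₂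

/-- `A` is isomorphic to the algebra of all compact operators on some Hilbert space `H` -/
def IsoToCompacts (A : Set (B K)) : Prop :=
  ∃ (H : Type w) (_ : NormedAddCommGroup H) (_ : InnerProductSpace ℂ H) (_ : CompleteSpace H)
    (φ : B K → B H), IsIsoOntoCompacts A φ

end

end Vale.Agent.P070.Elem
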