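import Vale.Agent.Lib.P070.W.Concrete
import Vale.Agent.Lib.P070.W.Elem

/-!
# P070: proof of the elementary statement
-/

namespace Vale.Agent.P070.Elem

universe u v w

variable {K : Type} [NormedAddCommGroup K] [InnerProductSpace ℂ K] [CompleteSpace K]
  {H : Type u} [NormedAddCommGroup H] [InnerProductSpace ℂ H] [CompleteSpace H]

/-- the *-homomorphism given by a representation -/
noncomputable def toHom (A : StarSubalgebra ℂ (K →L[ℂ] K)) (π : (K →L[ℂ] K) → (H →L[ℂ] H))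
    (h : IsRep (A : Set (K →L[ℂ] K)) π) : A →⋆ₙₐ[ℂ] (H →L[ℂ] H) where
  toFun T := π T
  map_smul' c T := h.smul c T T.2
  map_zero' := by
    have h1 := h.smul 0 0 A.zero_mem
    rw [smul_zero, zero_smul] at h1
    exact h1
  map_add' S T := h.add S S.2 T T.2
  map_mul' S T := h.comp S S.2 T T.2
  map_star' T := h.adjoint T T.2

theorem toHom_apply (A : StarSubalgebra ℂ (K →L[ℂ] K)) (π : (K →L[ℂ] K) → (H →L[ℂ] H))
    (h : IsRep (A : Set (K →L[ℂ] K)) π) (T : A) : toHom A π h T = π T := rfl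

theorem toHom_irr (A : StarSubalgebra ℂ (K →L[ℂ] K)) (π : (K →L[ℂ] K) → (H →L[ℂ] H))
    (h : IsIrrep (A : Set (K →L[ℂ] K)) π) :
    toHom A π h.rep ≠ 0 ∧ ∀ E : Submodule ℂ H, IsClosed (E : Set H) →
      (∀ T, ∀ x ∈ E, toHom A π h.rep T x ∈ E) → E = ⊥ ∨ E = ⊤ := by
  constructor
  · obtain ⟨T, hT, hne⟩ := h.ne_zero
    intro h0
    apply hne
    have h1 : toHom A π h.rep ⟨T, hT⟩ = 0 := by rw [h0]; rfl
    exact h1
  · intro E hE hinv
    exact h.irreducible E hE (fun T hT x hx => hinv ⟨T, hT⟩ x hx)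

theorem naimark_elem :
    ∃ (K : Type) (_ : NormedAddCommGroup K) (_ : InnerProductSpace ℂ K) (_ : CompleteSpace K)
      (A : Set (B K)), IsCStarSubalgebra A ∧ IsIrrep A id ∧
        PropertyN.{u, v} A ∧ ¬ IsoToCompacts.{w} A := by
  obtain ⟨K, i1, i2, i3, A, hcl, ⟨⟨x, hx⟩, hirr⟩, hN, hnot⟩ := P070.W.concrete.{u, v, w}
  refine ⟨K, i1, i2, i3, (A : Set (K →L[ℂ] K)), ?_, ?_, ?_, ?_⟩
  · exact ⟨hcl, A.zero_mem, fun S hS T hT => A.add_mem hS hT, fun c T hT => A.smul_mem hT c,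
      fun S hS T hT => A.mul_mem hS hT, fun T hT => star_mem hT⟩
  · refine ⟨⟨fun _ _ _ _ => rfl, fun _ _ _ => rfl, fun _ _ _ _ => rfl, fun _ _ => rfl⟩, ?_, ?_⟩
    · refine ⟨1, A.one_mem, fun h => hx ?_⟩
      have := congrArg (fun T : K →L[ℂ] K => T x) h
      exact this
    · intro E hE hinv
      exact hirr E hE hinv
  · intro H₁ _ _ _ H₂ _ _ _ π₁ π₂ h₁ h₂
    obtain ⟨U, hU⟩ := hN H₁ H₂ (toHom A π₁ h₁.rep) (toHom A π₂ h₂.rep) (toHom_irr A π₁ h₁)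
      (toHom_irr A π₂ h₂)
    exact ⟨U, fun T hT x => hU ⟨T, hT⟩ x⟩
  · rintro ⟨H, _, _, _, φ, h1, h2, h3⟩
    refine hnot ⟨H, inferInstance, inferInstance, inferInstance, toHom A φ h1, ?_, ?_⟩
    · intro S T hST
      exact Subtype.ext (h2 S.2 T.2 hST)
    · rw [← h3]
      ext T
      constructor
      · rintro ⟨S, rfl⟩
        exact ⟨S, S.2, rfl⟩
      · rintro ⟨S, hS, rfl⟩
        exact ⟨⟨S, hS⟩, rfl⟩

end Vale.Agent.P070.Elem
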